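import Vale.Agent.P284.H619.K.AlgC

/-!
# P284 (helper619), theorem K: pointwise algebra, part D

The norm of `L_1 ∧ … ∧ L_R` is a determinant (Cauchy–Binet); monotonicity of the determinant and of
`|A|²_w dV_w`; the mass estimate.
-/

open scoped Matrix ComplexConjugate ComplexOrder
open Vale.Agent.P272.K Vale.Agent.P284.H608.K

noncomputable section

namespace Vale.Agent.P284.H619.K

variable {n p R : ℕ}

/-- the coefficients of the components of `L` -/
def tL (L : Cm n →L[ℂ] Cm R) (l : Fin R) (c : Fin n) : ℂ := L (Pi.single c 1) l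

theorem pv_tL (L : Cm n →L[ℂ] Cm R) (l : Fin R) (v : Cm n) : pv (tL L l) v = L v l := by
  have h : v = ∑ a, v a • (Pi.single a (1 : ℂ) : Cm n) := by
    funext b
    simp [Finset.sum_apply, Pi.single_apply]
  conv_rhs => rw [h]
  rw [map_sum, Finset.sum_apply]
  unfold pv tL
  refine Finset.sum_congr rfl fun a _ => ?_
  rw [map_smul, Pi.smul_apply, smul_eq_mul, mul_comm]

/-- `D = L_1 ∧ … ∧ L_R` -/
def IsDet (L : Cm n →L[ℂ] Cm R) (D : Af n R) : Prop :=
  ∀ ξ : Fin R → Cm n, D ξ = (Matrix.of fun i j => L (ξ j) i).det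

/-- the Gram matrix -/
def gm (w : Matrix (Fin n) (Fin n) ℂ) (L : Cm n →L[ℂ] Cm R) : Matrix (Fin R) (Fin R) ℂ :=
  Matrix.of fun k l => ∑ a, ∑ c, tL L k a * conj (tL L l c) * w⁻¹ c a

theorem ev_det {L : Cm n →L[ℂ] Cm R} {D : Af n R} (hD : IsDet L D) (s : Fin R → Fin n) :
    ev D s = (Matrix.of fun i j => tL L i (s j)).det := hD _

/-- **Cauchy–Binet** -/
theorem hn_det (w : Matrix (Fin n) (Fin n) ℂ) {L : Cm n →L[ℂ] Cm R} {D : Af n R}
    (hD : IsDet L D) : hn w D D = (gm w L).det := by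
  -- expansion of the determinant of the Gram matrix
  have h1 : (gm w L).det = ∑ s : Fin R → Fin n, ∑ t : Fin R → Fin n,
      ev D s * (∏ j, conj (tL L j (t j))) * ∏ j, w⁻¹ (t j) (s j) := by
    rw [Matrix.det_apply']
    have h2 : ∀ σ : Equiv.Perm (Fin R), ∏ j, gm w L (σ j) j =
        ∑ s : Fin R → Fin n, ∑ t : Fin R → Fin n,
          (∏ j, tL L (σ j) (s j)) * ((∏ j, conj (tL L j (t j))) * ∏ j, w⁻¹ (t j) (s j)) := by
      intro σ
      unfold gm
      simp only [Matrix.of_apply]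
      rw [Finset.prod_univ_sum, Fintype.piFinset_univ]
      refine Finset.sum_congr rfl fun s _ => ?_
      rw [Finset.prod_univ_sum, Fintype.piFinset_univ]
      refine Finset.sum_congr rfl fun t _ => ?_
      rw [← Finset.prod_mul_distrib, ← Finset.prod_mul_distrib]
      refine Finset.prod_congr rfl fun j _ => ?_
      ring
    simp only [h2, Finset.mul_sum]
    rw [Finset.sum_comm]
    refine Finset.sum_congr rfl fun s _ => ?_
    rw [Finset.sum_comm]
    refine Finset.sum_congr rfl fun t _ => ?_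
    rw [ev_det hD, Matrix.det_apply', Finset.sum_mul, Finset.sum_mul]
    refine Finset.sum_congr rfl fun σ _ => ?_
    simp only [Matrix.of_apply]
    ring
  -- symmetrisation
  have hevp : ∀ (τ : Equiv.Perm (Fin R)) (s : Fin R → Fin n),
      ev D (s ∘ τ) = ((Equiv.Perm.sign τ : ℤ) : ℂ) * ev D s := by
    intro τ s
    rw [ev_det hD, ev_det hD]
    exact Matrix.det_permute' τ (Matrix.of fun i j => tL L i (s j))
  have h3 : ∀ τ : Equiv.Perm (Fin R), (gm w L).det = ∑ s : Fin R → Fin n, ∑ t : Fin R → Fin n,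
      ev D s * (((Equiv.Perm.sign τ : ℤ) : ℂ) * ∏ j, conj (tL L j (t (τ j)))) *
        ∏ j, w⁻¹ (t j) (s j) := by
    intro τ
    rw [h1]
    rw [← (Equiv.arrowCongr τ.symm (Equiv.refl (Fin n))).sum_comp]
    refine Finset.sum_congr rfl fun s _ => ?_
    rw [← (Equiv.arrowCongr τ.symm (Equiv.refl (Fin n))).sum_comp]
    refine Finset.sum_congr rfl fun t _ => ?_
    have h4 : ∀ s : Fin R → Fin n, (Equiv.arrowCongr τ.symm (Equiv.refl (Fin n))) s = s ∘ τ :=
      fun s => rfl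
    rw [h4, h4, hevp]
    have h5 : ∏ j, w⁻¹ ((t ∘ τ) j) ((s ∘ τ) j) = ∏ j, w⁻¹ (t j) (s j) :=
      Equiv.prod_comp τ fun j => w⁻¹ (t j) (s j)
    rw [h5]
    simp only [Function.comp_apply]
    ring
  have h6 : (R.factorial : ℂ) * (gm w L).det = ∑ s : Fin R → Fin n, ∑ t : Fin R → Fin n,
      ev D s * conj (ev D t) * ∏ j, w⁻¹ (t j) (s j) := by
    have h7 : (R.factorial : ℂ) * (gm w L).det = ∑ _τ : Equiv.Perm (Fin R), (gm w L).det := by
      rw [Finset.sum_const, Finset.card_univ, Fintype.card_perm, Fintype.card_fin, nsmul_eq_mul]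
    rw [h7, Finset.sum_congr rfl fun τ _ => h3 τ, Finset.sum_comm]
    refine Finset.sum_congr rfl fun s _ => ?_
    rw [Finset.sum_comm]
    refine Finset.sum_congr rfl fun t _ => ?_
    rw [← Finset.sum_mul, ← Finset.mul_sum]
    congr 2
    rw [ev_det hD, ← Matrix.det_transpose, Matrix.det_apply', map_sum]
    refine Finset.sum_congr rfl fun τ _ => ?_
    rw [map_mul, map_prod, map_intCast]
    rfl
  have hR : (R.factorial : ℂ) ≠ 0 := Nat.cast_ne_zero.mpr (Nat.factorial_ne_zero R)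
  unfold hn
  rw [← h6, ← mul_assoc, inv_mul_cancel₀ hR, one_mul]

/-- the determinant of `1 + T` -/
theorem det_one_add {T : Matrix (Fin n) (Fin n) ℂ} (hT : T.PosSemidef) :
    (1 + T).det = ∏ i, (((1 + hT.1.eigenvalues i : ℝ)) : ℂ) := by
  have h := hT.1.spectral_theorem
  rw [Unitary.conjStarAlgAut_apply] at h
  set U : Matrix (Fin n) (Fin n) ℂ := (hT.1.eigenvectorUnitary : Matrix (Fin n) (Fin n) ℂ)
    with hU
  have h1 : U * star U = 1 := Unitary.coe_mul_star_self _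
  have h2 : 1 + T = U * (1 + Matrix.diagonal (RCLike.ofReal ∘ hT.1.eigenvalues)) * star U := by
    rw [mul_add, add_mul, mul_one, h1, ← h]
  have h3 : (1 : Matrix (Fin n) (Fin n) ℂ) + Matrix.diagonal (RCLike.ofReal ∘ hT.1.eigenvalues) =
      Matrix.diagonal fun i => (((1 + hT.1.eigenvalues i : ℝ)) : ℂ) := by
    rw [← Matrix.diagonal_one, Matrix.diagonal_add]
    congr 1
    funext i
    simp
  rw [h2, h3, Matrix.det_mul, Matrix.det_mul, mul_comm, ← mul_assoc, ← Matrix.det_mul]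
  have h4 : star U * U = 1 := Unitary.coe_star_mul_self _
  rw [h4, Matrix.det_one, one_mul, Matrix.det_diagonal]

theorem one_le_det {T : Matrix (Fin n) (Fin n) ℂ} (hT : T.PosSemidef) : 1 ≤ (1 + T).det := by
  rw [det_one_add hT, ← Complex.ofReal_prod, ← Complex.ofReal_one, Complex.real_le_real]
  calc (1 : ℝ) = ∏ _i : Fin n, 1 := by simp
    _ ≤ _ := Finset.prod_le_prod (fun i _ => zero_le_one) fun i _ => by
        linarith [hT.eigenvalues_nonneg i]

theorem det_le_det_one_add {T : Matrix (Fin n) (Fin n) ℂ} (hT : T.PosSemidef) :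
    T.det ≤ (1 + T).det := by
  rw [det_one_add hT, hT.1.det_eq_prod_eigenvalues]
  have h : ∏ i, ((hT.1.eigenvalues i : ℝ) : ℂ) ≤ ∏ i, (((1 + hT.1.eigenvalues i : ℝ)) : ℂ) := by
    rw [← Complex.ofReal_prod, ← Complex.ofReal_prod, Complex.real_le_real]
    exact Finset.prod_le_prod (fun i _ => hT.eigenvalues_nonneg i) fun i _ => by linarith
  exact h

/-- the determinant is monotone -/
theorem det_mono {A B : Matrix (Fin n) (Fin n) ℂ} (hA : A.PosDef) (h : (B - A).PosSemidef) :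
    A.det ≤ B.det := by
  obtain ⟨P, hP⟩ := exists_sq hA
  have hu : IsUnit P.det := by
    have h6 : IsUnit A.det := (Matrix.isUnit_iff_isUnit_det _).mp hA.isUnit
    rw [hP, Matrix.det_mul] at h6
    exact isUnit_of_mul_isUnit_left h6
  have h7 : P * P⁻¹ = 1 := Matrix.mul_nonsing_inv _ hu
  have h8 : P⁻¹ᴴ * Pᴴ = 1 := by
    rw [← Matrix.conjTranspose_mul, h7, Matrix.conjTranspose_one]
  have hT : (P⁻¹ * (B - A) * P⁻¹ᴴ).PosSemidef := h.mul_mul_conjTranspose_same P⁻¹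
  have h9 : B = P * (1 + P⁻¹ * (B - A) * P⁻¹ᴴ) * Pᴴ := by
    rw [mul_add, add_mul, mul_one, ← hP]
    have h10 : P * (P⁻¹ * (B - A) * P⁻¹ᴴ) * Pᴴ = (P * P⁻¹) * (B - A) * (P⁻¹ᴴ * Pᴴ) := by
      simp only [Matrix.mul_assoc]
    rw [h10, h7, h8, one_mul, mul_one, add_sub_cancel]
  have h11 : B.det = A.det * (1 + P⁻¹ * (B - A) * P⁻¹ᴴ).det := by
    conv_lhs => rw [h9]
    rw [Matrix.det_mul, Matrix.det_mul, hP, Matrix.det_mul]
    ring
  rw [h11]
  exact le_mul_of_one_le_right hA.det_pos.le (one_le_det hT)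

theorem gm_eq (w : Matrix (Fin n) (Fin n) ℂ) (L : Cm n →L[ℂ] Cm R) :
    (gm w L)ᵀ = (Matrix.of fun l c => conj (tL L l c)) * w⁻¹ *
      (Matrix.of fun l c => conj (tL L l c))ᴴ := by
  ext k l
  rw [Matrix.transpose_apply, Matrix.mul_apply]
  unfold gm
  rw [Matrix.of_apply]
  refine Finset.sum_congr rfl fun a _ => ?_
  rw [Matrix.mul_apply, Finset.sum_mul]
  refine Finset.sum_congr rfl fun c _ => ?_
  rw [Matrix.conjTranspose_apply, Matrix.of_apply, Matrix.of_apply]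
  have h1 : star (conj (tL L l a)) = tL L l a := Complex.conj_conj _
  rw [h1]
  ring

theorem sq_tL (L : Cm n →L[ℂ] Cm R) : sq (tL L) =
    (Matrix.of fun l c => conj (tL L l c))ᴴ * (Matrix.of fun l c => conj (tL L l c)) := by
  ext c d
  rw [Matrix.mul_apply]
  unfold sq
  rw [Matrix.of_apply]
  refine Finset.sum_congr rfl fun l _ => ?_
  rw [Matrix.conjTranspose_apply, Matrix.of_apply, Matrix.of_apply]
  have h1 : star (conj (tL L l c)) = tL L l c := Complex.conj_conj _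
  rw [h1]

theorem sq_posSemidef {ι : Type*} [Fintype ι] (θ : ι → Fin n → ℂ) : (sq θ).PosSemidef := by
  have h : sq θ = (Matrix.of fun l c => conj (θ l c))ᴴ * (Matrix.of fun l c => conj (θ l c)) := by
    ext c d
    rw [Matrix.mul_apply]
    unfold sq
    rw [Matrix.of_apply]
    refine Finset.sum_congr rfl fun l _ => ?_
    rw [Matrix.conjTranspose_apply, Matrix.of_apply, Matrix.of_apply]
    have h1 : star (conj (θ l c)) = θ l c := Complex.conj_conj _
    rw [h1]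
  rw [h]
  exact Matrix.posSemidef_conjTranspose_mul_self _

/-- **mass**, for `h + c Σ L_l ⊗ conj L_l` -/
theorem mass_sq {h : Matrix (Fin n) (Fin n) ℂ} (hh : h.PosDef) {L : Cm n →L[ℂ] Cm R} {D : Af n R}
    (hD : IsDet L D) {c : ℝ} (hc : 0 < c) :
    ((c ^ R : ℝ) : ℂ) * (hn h D D * h.det) ≤ (h + (c : ℂ) • sq (tL L)).det := by
  set B : Matrix (Fin R) (Fin n) ℂ := Matrix.of fun l c => conj (tL L l c) with hB
  have hu : IsUnit h.det := (Matrix.isUnit_iff_isUnit_det _).mp hh.isUnit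
  have h1 : h * h⁻¹ = 1 := Matrix.mul_nonsing_inv _ hu
  have h2 : h + (c : ℂ) • sq (tL L) = h * (1 + (h⁻¹ * Bᴴ) * ((c : ℂ) • B)) := by
    rw [sq_tL, mul_add, mul_one, ← Matrix.mul_assoc, ← Matrix.mul_assoc, h1, Matrix.one_mul,
      Matrix.mul_smul]
  have h3 : ((c : ℂ) • B) * (h⁻¹ * Bᴴ) = (c : ℂ) • (gm h L)ᵀ := by
    rw [gm_eq, Matrix.smul_mul, Matrix.mul_assoc]
  have h4 : ((c : ℂ) • (gm h L)ᵀ).PosSemidef := by
    have h5 : ((gm h L)ᵀ).PosSemidef := by
      rw [gm_eq]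
      exact hh.inv.posSemidef.mul_mul_conjTranspose_same B
    exact h5.smul (Complex.zero_le_real.mpr hc.le)
  rw [h2, Matrix.det_mul, Matrix.det_one_add_mul_comm, h3, hn_det h hD]
  have h6 := det_le_det_one_add h4
  rw [Matrix.det_smul, Fintype.card_fin, Matrix.det_transpose] at h6
  calc ((c ^ R : ℝ) : ℂ) * ((gm h L).det * h.det) = h.det * ((c : ℂ) ^ R * (gm h L).det) := by
        rw [Complex.ofReal_pow]
        ring
    _ ≤ _ := mul_le_mul_of_nonneg_left h6 hh.det_pos.le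

/-- **`mass_le`** (complex form) -/
theorem mass_leC {h ρ : Matrix (Fin n) (Fin n) ℂ} (hh : h.PosDef) {L : Cm n →L[ℂ] Cm R}
    {D : Af n R} (hD : IsDet L D) {c : ℝ} (hc : 0 < c)
    (hρ : (ρ - (c : ℂ) • sq (tL L)).PosSemidef) :
    ((c ^ R : ℝ) : ℂ) * (hn h D D * h.det) ≤ (ρ + h).det := by
  refine (mass_sq hh hD hc).trans (det_mono ?_ ?_)
  · exact hh.add_posSemidef ((sq_posSemidef _).smul (Complex.zero_le_real.mpr hc.le))
  · have h1 : ρ + h - (h + (c : ℂ) • sq (tL L)) = ρ - (c : ℂ) • sq (tL L) := by abel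
    rw [h1]
    exact hρ

theorem re_mul_det {h : Matrix (Fin n) (Fin n) ℂ} (hh : h.PosDef) (z : ℂ) :
    (z * h.det).re = z.re * h.det.re := by
  have h1 : h.det.im = 0 := (Complex.lt_def.mp hh.det_pos).2.symm
  rw [Complex.mul_re, h1, mul_zero, sub_zero]

/-- **`mass_le`** -/
theorem mass_le {h ρ : Matrix (Fin n) (Fin n) ℂ} (hh : h.PosDef) {L : Cm n →L[ℂ] Cm R}
    {D : Af n R} (hD : IsDet L D) {c : ℝ} (hc : 0 < c)
    (hρ : (ρ - (c : ℂ) • sq (tL L)).PosSemidef) :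
    (hn h D D).re * h.det.re ≤ (c ^ R)⁻¹ * (ρ + h).det.re := by
  have h1 := (Complex.le_def.mp (mass_leC hh hD hc hρ)).1
  rw [Complex.re_ofReal_mul, re_mul_det hh] at h1
  have h2 : 0 < c ^ R := pow_pos hc R
  rw [inv_mul_eq_div, le_div_iff₀ h2]
  linarith

/-- simultaneous diagonalisation -/
theorem exists_diag {w h : Matrix (Fin n) (Fin n) ℂ} (hw : w.PosDef) (hwh : (h - w).PosSemidef) :
    ∃ (P : Matrix (Fin n) (Fin n) ℂ) (d : Fin n → ℝ), (∀ i, 1 ≤ d i) ∧ w⁻¹ = P * Pᴴ ∧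
      h⁻¹ = P * Matrix.diagonal (fun i => (((d i)⁻¹ : ℝ) : ℂ)) * Pᴴ ∧
      h.det = w.det * ∏ i, ((d i : ℝ) : ℂ) := by
  have hh : h.PosDef := by
    have h1 : h = w + (h - w) := (add_sub_cancel w h).symm
    rw [h1]
    exact hw.add_posSemidef hwh
  obtain ⟨Q, hQ⟩ := exists_sq hw.inv
  have hw1 : w * w⁻¹ = 1 := Matrix.mul_nonsing_inv _ ((Matrix.isUnit_iff_isUnit_det _).mp hw.isUnit)
  have hw2 : w⁻¹ * w = 1 := Matrix.nonsing_inv_mul _ ((Matrix.isUnit_iff_isUnit_det _).mp hw.isUnit)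
  have hu : IsUnit Q.det := by
    have h6 : IsUnit (w⁻¹).det := (Matrix.isUnit_iff_isUnit_det _).mp hw.inv.isUnit
    rw [hQ, Matrix.det_mul] at h6
    exact isUnit_of_mul_isUnit_left h6
  have hq1 : Q⁻¹ * Q = 1 := Matrix.nonsing_inv_mul _ hu
  have hqw : Qᴴ * w * Q = 1 := by
    -- `Q Qᴴ w = 1`
    have h1 : Q * (Qᴴ * w) = 1 := by rw [← Matrix.mul_assoc, ← hQ, hw2]
    exact mul_eq_one_comm.mp h1
  have hT : (Qᴴ * h * Q).PosDef := by
    refine hh.conjTranspose_mul_mul_same ?_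
    intro u v huv
    have h1 : Q⁻¹ *ᵥ (Q *ᵥ u) = Q⁻¹ *ᵥ (Q *ᵥ v) := by rw [huv]
    rwa [Matrix.mulVec_mulVec, Matrix.mulVec_mulVec, hq1, Matrix.one_mulVec,
      Matrix.one_mulVec] at h1
  have hs := hT.1.spectral_theorem
  rw [Unitary.conjStarAlgAut_apply] at hs
  set U : Matrix (Fin n) (Fin n) ℂ := (hT.1.eigenvectorUnitary : Matrix (Fin n) (Fin n) ℂ)
  have hU1 : U * Uᴴ = 1 := Unitary.coe_mul_star_self _
  have hU2 : Uᴴ * U = 1 := Unitary.coe_star_mul_self _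
  set d : Fin n → ℝ := hT.1.eigenvalues with hd
  have hdp : ∀ i, 0 < d i := hT.eigenvalues_pos
  set Dg : Matrix (Fin n) (Fin n) ℂ := Matrix.diagonal (RCLike.ofReal ∘ d) with hDg
  have hP1 : (Q * U)ᴴ * h * (Q * U) = Dg := by
    rw [Matrix.conjTranspose_mul]
    have h1 : Uᴴ * Qᴴ * h * (Q * U) = Uᴴ * (Qᴴ * h * Q) * U := by simp only [Matrix.mul_assoc]
    rw [h1, hs]
    have h2 : Uᴴ * (U * Dg * star U) * U = (Uᴴ * U) * Dg * (Uᴴ * U) := by
      have h3 : star U = Uᴴ := rfl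
      rw [h3]
      simp only [Matrix.mul_assoc]
    rw [h2, hU2, one_mul, mul_one]
  have hP2 : (Q * U)ᴴ * w * (Q * U) = 1 := by
    rw [Matrix.conjTranspose_mul]
    have h1 : Uᴴ * Qᴴ * w * (Q * U) = Uᴴ * (Qᴴ * w * Q) * U := by simp only [Matrix.mul_assoc]
    rw [h1, hqw, mul_one, hU2]
  have hd1 : ∀ i, 1 ≤ d i := by
    intro i
    have h1 : ((Q * U)ᴴ * (h - w) * (Q * U)).PosSemidef := hwh.conjTranspose_mul_mul_same _
    rw [Matrix.mul_sub, Matrix.sub_mul, hP1, hP2] at h1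
    have h2 := h1.diag_nonneg (i := i)
    rw [Matrix.sub_apply, hDg, Matrix.diagonal_apply_eq, Matrix.one_apply_eq] at h2
    have h3 : (0 : ℂ) ≤ ((d i - 1 : ℝ) : ℂ) := by
      rw [Complex.ofReal_sub, Complex.ofReal_one]
      exact h2
    have h4 := Complex.zero_le_real.mp h3
    linarith
  have hw3 : w⁻¹ = (Q * U) * (Q * U)ᴴ := by
    rw [Matrix.conjTranspose_mul, hQ]
    have h1 : Q * U * (Uᴴ * Qᴴ) = Q * (U * Uᴴ) * Qᴴ := by simp only [Matrix.mul_assoc]
    rw [h1, hU1, mul_one]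
  refine ⟨Q * U, d, hd1, hw3, ?_, ?_⟩
  · refine Matrix.inv_eq_left_inv ?_
    set P := Q * U with hPdef
    -- `P D⁻¹ Pᴴ h = 1` from `(D⁻¹ Pᴴ h) P = 1`
    have h1 : (Matrix.diagonal (fun i => (((d i)⁻¹ : ℝ) : ℂ)) * Pᴴ * h) * P = 1 := by
      have h2 : (Matrix.diagonal (fun i => (((d i)⁻¹ : ℝ) : ℂ)) * Pᴴ * h) * P =
          Matrix.diagonal (fun i => (((d i)⁻¹ : ℝ) : ℂ)) * (Pᴴ * h * P) := by
        simp only [Matrix.mul_assoc]
      rw [h2, hP1, hDg, Matrix.diagonal_mul_diagonal, ← Matrix.diagonal_one]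
      congr 1
      funext i
      have h3 : ((RCLike.ofReal ∘ d) i : ℂ) = ((d i : ℝ) : ℂ) := rfl
      rw [h3, ← Complex.ofReal_mul, inv_mul_cancel₀ (hdp i).ne', Complex.ofReal_one]
    have h4 := mul_eq_one_comm.mp h1
    calc P * Matrix.diagonal (fun i => (((d i)⁻¹ : ℝ) : ℂ)) * Pᴴ * h =
          P * (Matrix.diagonal (fun i => (((d i)⁻¹ : ℝ) : ℂ)) * Pᴴ * h) := by
            simp only [Matrix.mul_assoc]
      _ = 1 := h4
  · have h1 := congrArg Matrix.det hP1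
    have h2 := congrArg Matrix.det hP2
    rw [Matrix.det_mul, Matrix.det_mul, hDg, Matrix.det_diagonal] at h1
    rw [Matrix.det_mul, Matrix.det_mul, Matrix.det_one] at h2
    have h3 : ∏ i, ((d i : ℝ) : ℂ) = (Q * U)ᴴ.det * h.det * (Q * U).det := h1.symm
    rw [h3]
    linear_combination (-h.det) * h2

/-- **`hn_mono`** -/
theorem hn_mono {w h : Matrix (Fin n) (Fin n) ℂ} (hw : w.PosDef) (hwh : (h - w).PosSemidef)
    (A : Af n p) : hn w A A * w.det ≤ hn h A A * h.det := by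
  obtain ⟨P, d, hd, hw1, hh1, hdet⟩ := exists_diag hw hwh
  have h1 : hn w A A = ((p.factorial : ℂ))⁻¹ * ∑ κ : Fin p → Fin n,
      (((‖A fun i => fv P (κ i)‖ ^ 2 : ℝ)) : ℂ) := by
    rw [hn_frame P (fun _ => 1) (by rw [hw1, Matrix.diagonal_one, Matrix.mul_one])]
    congr 1
    refine Finset.sum_congr rfl fun κ _ => ?_
    rw [Finset.prod_const_one, one_mul, Complex.mul_conj, Complex.normSq_eq_norm_sq]
  have h2 : hn h A A = ((p.factorial : ℂ))⁻¹ * ∑ κ : Fin p → Fin n,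
      ((((∏ i, (d (κ i))⁻¹) * ‖A fun i => fv P (κ i)‖ ^ 2 : ℝ)) : ℂ) := by
    rw [hn_frame P _ hh1]
    congr 1
    refine Finset.sum_congr rfl fun κ _ => ?_
    rw [mul_assoc, Complex.mul_conj, Complex.normSq_eq_norm_sq, Complex.ofReal_mul,
      Complex.ofReal_prod]
  rw [hdet, h1, h2]
  have h3 : ∀ κ : Fin p → Fin n, ‖A fun i => fv P (κ i)‖ ^ 2 ≤
      ((∏ i, (d (κ i))⁻¹) * ‖A fun i => fv P (κ i)‖ ^ 2) * ∏ i, d i := by
    intro κ
    by_cases hκ : Function.Injective κ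
    · have hp0 : 0 < ∏ i, d (κ i) := Finset.prod_pos fun i _ => by linarith [hd (κ i)]
      have h4 : ∏ i, d (κ i) ≤ ∏ i, d i := by
        have h5 : ∏ i, d (κ i) = ∏ j ∈ Finset.univ.image κ, d j := by
          rw [Finset.prod_image fun a _ b _ hab => hκ hab]
        rw [h5, ← Finset.prod_sdiff (Finset.subset_univ (Finset.univ.image κ))]
        refine le_mul_of_one_le_left ?_ ?_
        · exact Finset.prod_nonneg fun j _ => by linarith [hd j]
        · calc (1 : ℝ) = ∏ _j ∈ Finset.univ \ Finset.univ.image κ, (1 : ℝ) := by simp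
            _ ≤ _ := Finset.prod_le_prod (fun i _ => zero_le_one) fun i _ => hd i
      have h5 : 1 ≤ (∏ i, (d (κ i))⁻¹) * ∏ i, d i := by
        rw [Finset.prod_inv_distrib, inv_mul_eq_div, one_le_div hp0]
        exact h4
      calc ‖A fun i => fv P (κ i)‖ ^ 2 = 1 * ‖A fun i => fv P (κ i)‖ ^ 2 := (one_mul _).symm
        _ ≤ ((∏ i, (d (κ i))⁻¹) * ∏ i, d i) * ‖A fun i => fv P (κ i)‖ ^ 2 :=
          mul_le_mul_of_nonneg_right h5 (sq_nonneg _)
        _ = _ := by ring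
    · have h4 : (A fun i => fv P (κ i)) = 0 := by
        refine A.map_eq_zero_of_not_injective _ fun hinj => hκ fun a b hab => hinj ?_
        change fv P (κ a) = fv P (κ b)
        rw [hab]
      rw [h4, norm_zero]
      simp
  have h4 : (∑ κ : Fin p → Fin n, ‖A fun i => fv P (κ i)‖ ^ 2) ≤
      (∑ κ : Fin p → Fin n, (∏ i, (d (κ i))⁻¹) * ‖A fun i => fv P (κ i)‖ ^ 2) * ∏ i, d i := by
    rw [Finset.sum_mul]
    exact Finset.sum_le_sum fun κ _ => h3 κ
  have h5 : (∑ κ : Fin p → Fin n, (((‖A fun i => fv P (κ i)‖ ^ 2 : ℝ)) : ℂ)) ≤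
      (∑ κ : Fin p → Fin n,
        ((((∏ i, (d (κ i))⁻¹) * ‖A fun i => fv P (κ i)‖ ^ 2 : ℝ)) : ℂ)) * ∏ i, ((d i : ℝ) : ℂ) := by
    rw [← Complex.ofReal_sum, ← Complex.ofReal_sum, ← Complex.ofReal_prod, ← Complex.ofReal_mul,
      Complex.real_le_real]
    exact h4
  have h6 : (0 : ℂ) ≤ ((p.factorial : ℂ))⁻¹ * w.det := by
    refine mul_nonneg ?_ hw.det_pos.le
    rw [← Complex.ofReal_natCast, ← Complex.ofReal_inv, Complex.zero_le_real]
    positivity
  calc _ = ((p.factorial : ℂ))⁻¹ * w.det *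
        ∑ κ : Fin p → Fin n, (((‖A fun i => fv P (κ i)‖ ^ 2 : ℝ)) : ℂ) := by ring
    _ ≤ ((p.factorial : ℂ))⁻¹ * w.det * ((∑ κ : Fin p → Fin n,
        ((((∏ i, (d (κ i))⁻¹) * ‖A fun i => fv P (κ i)‖ ^ 2 : ℝ)) : ℂ)) *
          ∏ i, ((d i : ℝ) : ℂ)) := mul_le_mul_of_nonneg_left h5 h6
    _ = _ := by ring

/-- **`hn_mono`**, real form -/
theorem hn_mono_re {w h : Matrix (Fin n) (Fin n) ℂ} (hw : w.PosDef) (hh : h.PosDef)
    (hwh : (h - w).PosSemidef) (A : Af n p) :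
    (hn w A A).re * w.det.re ≤ (hn h A A).re * h.det.re := by
  have h1 := (Complex.le_def.mp (hn_mono hw hwh A)).1
  rwa [re_mul_det hw, re_mul_det hh] at h1

end Vale.Agent.P284.H619.K
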