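import Vale.Agent.P284.H553.K8.Nf
import Vale.Agent.P284.H619.K.AlgD

/-!
# P284 (helper619), theorem K: pointwise algebra, part E

The statements of part A - D for `dF b z = db_1 ∧ … ∧ db_R`; `AdRank` (553).
-/

open scoped Matrix ComplexConjugate ComplexOrder
open Vale.Agent.P272.K Vale.Agent.P284.H608.K Vale.Agent.P284.H553.K8 Vale.Agent.P284.H573
  Vale.Agent.P284.H395 Vale.Agent.P284.H553.LB

noncomputable section

namespace Vale.Agent.P284.H619.K

variable {n p R : ℕ}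

theorem BB_sq (b : Cm n → Cm R) (z : Cm n) :
    Vale.Agent.P284.H553.K8.BB b z = sq (tL (fderiv ℂ b z)) := rfl

theorem isDet_dF (b : Cm n → Cm R) (z : Cm n) : IsDet (fderiv ℂ b z) (dF b z) :=
  fun ξ => dF_apply b z ξ

/-- **(a)** -/
theorem hn_dF (w : Matrix (Fin n) (Fin n) ℂ) (b : Cm n → Cm R) (z : Cm n) :
    hn w (dF b z) (dF b z) = (Matrix.of fun k l => ∑ a, ∑ c,
      fderiv ℂ b z (Pi.single a 1) k * conj (fderiv ℂ b z (Pi.single c 1) l) * w⁻¹ c a).det :=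
  hn_det w (isDet_dF b z)

/-- **(b)** -/
theorem mass_dF {h ρ : Matrix (Fin n) (Fin n) ℂ} (hh : h.PosDef) (b : Cm n → Cm R) (z : Cm n)
    {c : ℝ} (hc : 0 < c) (hρ : (ρ - (c : ℂ) • Vale.Agent.P284.H553.K8.BB b z).PosSemidef) :
    (hn h (dF b z) (dF b z)).re * h.det.re ≤ (c ^ R)⁻¹ * (ρ + h).det.re :=
  mass_le hh (isDet_dF b z) hc hρ

/-- **(e)** -/
theorem adRank : AdRank := by
  intro n R w ρ b z c η hw hc hρ hA ξ₀ hξ₀
  have h0 : ∀ l, wd (tL (fderiv ℂ b z) l) η = 0 := fun l =>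
    wd_eq_zero hw hc hρ (by rw [hA, Complex.zero_re]) l
  have h1 : ∀ l j, pv (tL (fderiv ℂ b z) l) (ξ₀ j) = if l = j then 1 else 0 := by
    intro l j
    rw [pv_tL, hξ₀ j, Pi.single_apply]
  ext v
  rw [eq_det h0 h1 v, ContinuousAlternatingMap.smul_apply, smul_eq_mul, isDet_dF b z v,
    ← Matrix.det_transpose]
  congr 2
  ext i j
  rw [Matrix.transpose_apply, Matrix.of_apply, Matrix.of_apply, pv_tL]

end Vale.Agent.P284.H619.K
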