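import Vale.Agent.P284.H608.K.Defs
import Mathlib.Analysis.Matrix.PosDef
import Mathlib.LinearAlgebra.Matrix.PosDef

/-!
# P284 (helper619), theorem K: pointwise algebra of alternating forms

`hn` in an orthonormal frame; Cauchy–Schwarz; the adjoint of `θ ∧`; `A_β` for a sum of squares.
-/

open scoped Matrix ComplexConjugate ComplexOrder
open Vale.Agent.P272.K Vale.Agent.P284.H608.K

noncomputable section

namespace Vale.Agent.P284.H619.K

variable {n p : ℕ}

/-- expansion of a form on the basis -/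
theorem map_expand (A : Af n p) (v : Fin p → Cm n) :
    A v = ∑ s : Fin p → Fin n, (∏ i, v i (s i)) * ev A s := by
  have h : v = fun i => ∑ j, v i j • (Pi.single j (1 : ℂ) : Cm n) := by
    funext i
    funext a
    simp [Finset.sum_apply, Pi.single_apply]
  conv_lhs => rw [h]
  have h1 := A.toContinuousMultilinearMap.map_sum
    (fun i (j : Fin n) => v i j • (Pi.single j (1 : ℂ) : Cm n))
  refine h1.trans (Finset.sum_congr rfl fun s _ => ?_)
  exact A.toContinuousMultilinearMap.map_smul_univ (fun i => v i (s i)) _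

/-- the conjugate of the `k`-th column -/
def fv (P : Matrix (Fin n) (Fin n) ℂ) (k : Fin n) : Cm n := fun a => conj (P a k)

/-- `hn` in a frame -/
theorem hn_frame {w : Matrix (Fin n) (Fin n) ℂ} (P : Matrix (Fin n) (Fin n) ℂ) (d : Fin n → ℂ)
    (h : w⁻¹ = P * Matrix.diagonal d * Pᴴ) (A B : Af n p) :
    hn w A B = ((p.factorial : ℂ))⁻¹ * ∑ κ : Fin p → Fin n,
      (∏ i, d (κ i)) * (A fun i => fv P (κ i)) * conj (B fun i => fv P (κ i)) := by
  have hw : ∀ t s, w⁻¹ t s = ∑ k, P t k * d k * conj (P s k) := by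
    intro t s
    rw [h, Matrix.mul_apply]
    refine Finset.sum_congr rfl fun k _ => ?_
    rw [Matrix.mul_diagonal, Matrix.conjTranspose_apply]
    rfl
  unfold hn
  congr 1
  have h1 : ∀ s t : Fin p → Fin n, ev A s * conj (ev B t) * ∏ i, w⁻¹ (t i) (s i) =
      ∑ κ : Fin p → Fin n, (∏ i, d (κ i)) * ((∏ i, fv P (κ i) (s i)) * ev A s) *
        conj ((∏ i, fv P (κ i) (t i)) * ev B t) := by
    intro s t
    have h2 : ∏ i, w⁻¹ (t i) (s i) =
        ∑ κ : Fin p → Fin n, ∏ i, (P (t i) (κ i) * d (κ i) * conj (P (s i) (κ i))) := by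
      rw [Finset.prod_congr rfl fun i _ => hw (t i) (s i), Finset.prod_univ_sum,
        Fintype.piFinset_univ]
    rw [h2, Finset.mul_sum]
    refine Finset.sum_congr rfl fun κ _ => ?_
    rw [Finset.prod_mul_distrib, Finset.prod_mul_distrib, map_mul, map_prod]
    have h3 : ∏ i, conj (fv P (κ i) (t i)) = ∏ i, P (t i) (κ i) :=
      Finset.prod_congr rfl fun i _ => Complex.conj_conj _
    rw [h3]
    have h4 : ∏ i, fv P (κ i) (s i) = ∏ i, conj (P (s i) (κ i)) := rfl
    rw [h4]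
    ring
  simp only [h1]
  rw [Finset.sum_congr rfl fun s _ => Finset.sum_comm, Finset.sum_comm]
  refine Finset.sum_congr rfl fun κ _ => ?_
  rw [map_expand A fun i => fv P (κ i), map_expand B fun i => fv P (κ i), map_sum,
    mul_assoc, Finset.sum_mul_sum, Finset.mul_sum]
  refine Finset.sum_congr rfl fun s _ => ?_
  rw [Finset.mul_sum]
  refine Finset.sum_congr rfl fun t _ => ?_
  rw [mul_assoc]

/-- a positive definite matrix is a product `P Pᴴ` -/
theorem exists_sq {C : Matrix (Fin n) (Fin n) ℂ} (hC : C.PosDef) :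
    ∃ P : Matrix (Fin n) (Fin n) ℂ, C = P * Pᴴ := by
  have h := hC.1.spectral_theorem
  rw [Unitary.conjStarAlgAut_apply] at h
  set U : Matrix (Fin n) (Fin n) ℂ := (hC.1.eigenvectorUnitary : Matrix (Fin n) (Fin n) ℂ)
  refine ⟨U * Matrix.diagonal fun i => ((Real.sqrt (hC.1.eigenvalues i) : ℝ) : ℂ), ?_⟩
  rw [Matrix.conjTranspose_mul, Matrix.diagonal_conjTranspose, ← Matrix.mul_assoc,
    Matrix.mul_assoc U, Matrix.diagonal_mul_diagonal]
  refine h.trans ?_
  congr 2
  ext i j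
  simp only [Matrix.diagonal_apply, Function.comp_apply, Pi.star_apply]
  split_ifs with hij
  · have h1 : star ((Real.sqrt (hC.1.eigenvalues i) : ℝ) : ℂ) =
        ((Real.sqrt (hC.1.eigenvalues i) : ℝ) : ℂ) := Complex.conj_ofReal _
    rw [h1, ← Complex.ofReal_mul, Real.mul_self_sqrt (hC.eigenvalues_pos i).le]
    rfl
  · rfl

/-- `hn` in an orthonormal frame -/
theorem exists_frame {w : Matrix (Fin n) (Fin n) ℂ} (hw : w.PosDef) :
    ∃ P : Matrix (Fin n) (Fin n) ℂ, w⁻¹ = P * Pᴴ ∧ ∀ (p : ℕ) (A B : Af n p),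
      hn w A B = ((p.factorial : ℂ))⁻¹ * ∑ κ : Fin p → Fin n,
        (A fun i => fv P (κ i)) * conj (B fun i => fv P (κ i)) := by
  obtain ⟨P, hP⟩ := exists_sq hw.inv
  refine ⟨P, hP, fun p A B => ?_⟩
  rw [hn_frame P (fun _ => 1) (by rw [hP, Matrix.diagonal_one, Matrix.mul_one])]
  simp

section sesq

variable (w : Matrix (Fin n) (Fin n) ℂ)

theorem hn_add_left (A A' B : Af n p) : hn w (A + A') B = hn w A B + hn w A' B := by
  unfold hn ev
  rw [← mul_add, ← Finset.sum_add_distrib]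
  congr 1
  refine Finset.sum_congr rfl fun s _ => ?_
  rw [← Finset.sum_add_distrib]
  refine Finset.sum_congr rfl fun t _ => ?_
  rw [ContinuousAlternatingMap.add_apply]
  ring

theorem hn_add_right (A B B' : Af n p) : hn w A (B + B') = hn w A B + hn w A B' := by
  unfold hn ev
  rw [← mul_add, ← Finset.sum_add_distrib]
  congr 1
  refine Finset.sum_congr rfl fun s _ => ?_
  rw [← Finset.sum_add_distrib]
  refine Finset.sum_congr rfl fun t _ => ?_
  rw [ContinuousAlternatingMap.add_apply, map_add]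
  ring

theorem hn_smul_left (c : ℂ) (A B : Af n p) : hn w (c • A) B = c * hn w A B := by
  unfold hn ev
  rw [mul_left_comm]
  congr 1
  rw [Finset.mul_sum]
  refine Finset.sum_congr rfl fun s _ => ?_
  rw [Finset.mul_sum]
  refine Finset.sum_congr rfl fun t _ => ?_
  rw [ContinuousAlternatingMap.smul_apply, smul_eq_mul]
  ring

theorem hn_smul_right (c : ℂ) (A B : Af n p) : hn w A (c • B) = conj c * hn w A B := by
  unfold hn ev
  rw [mul_left_comm]
  congr 1
  rw [Finset.mul_sum]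
  refine Finset.sum_congr rfl fun s _ => ?_
  rw [Finset.mul_sum]
  refine Finset.sum_congr rfl fun t _ => ?_
  rw [ContinuousAlternatingMap.smul_apply, smul_eq_mul, map_mul]
  ring

/-- `hn` as a sesquilinear map -/
def hnL (B : Af n p) : Af n p →ₗ[ℂ] ℂ where
  toFun A := hn w A B
  map_add' A A' := hn_add_left w A A' B
  map_smul' c A := hn_smul_left w c A B

/-- `hn` as a sesquilinear map -/
def hnR (A : Af n p) : Af n p →ₛₗ[starRingEnd ℂ] ℂ where
  toFun B := hn w A B
  map_add' B B' := hn_add_right w A B B'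
  map_smul' c B := hn_smul_right w c A B

theorem hn_sum_left {ι : Type*} (s : Finset ι) (A : ι → Af n p) (B : Af n p) :
    hn w (∑ i ∈ s, A i) B = ∑ i ∈ s, hn w (A i) B := map_sum (hnL w B) A s

theorem hn_sum_right {ι : Type*} (s : Finset ι) (A : Af n p) (B : ι → Af n p) :
    hn w A (∑ i ∈ s, B i) = ∑ i ∈ s, hn w A (B i) := map_sum (hnR w A) B s

theorem hn_zero_left (B : Af n p) : hn w 0 B = 0 := map_zero (hnL w B)

theorem hn_zero_right (A : Af n p) : hn w A 0 = 0 := map_zero (hnR w A)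

end sesq

/-- `hn w A A` is a real number `≥ 0` -/
theorem hn_self_nonneg {w : Matrix (Fin n) (Fin n) ℂ} (hw : w.PosDef) (A : Af n p) :
    0 ≤ hn w A A := by
  obtain ⟨P, -, hP⟩ := exists_frame hw
  rw [hP p A A]
  have h1 : (0 : ℂ) ≤ ((p.factorial : ℂ))⁻¹ := by
    rw [← Complex.ofReal_natCast, ← Complex.ofReal_inv, Complex.zero_le_real]
    positivity
  refine mul_nonneg h1 (Finset.sum_nonneg fun κ _ => ?_)
  rw [Complex.mul_conj, Complex.zero_le_real]
  exact Complex.normSq_nonneg _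

/-- a form with `hn w A A = 0` vanishes -/
theorem hn_self_eq_zero {w : Matrix (Fin n) (Fin n) ℂ} (hw : w.PosDef) (A : Af n p)
    (h : hn w A A = 0) : A = 0 := by
  obtain ⟨P, hwP, hP⟩ := exists_frame hw
  rw [hP p A A] at h
  have hp : ((p.factorial : ℂ))⁻¹ ≠ 0 :=
    inv_ne_zero (Nat.cast_ne_zero.mpr (Nat.factorial_ne_zero p))
  have h1 := (mul_eq_zero.mp h).resolve_left hp
  have h2 : ∀ κ : Fin p → Fin n, 0 ≤ (A fun i => fv P (κ i)) * conj (A fun i => fv P (κ i)) := by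
    intro κ
    rw [Complex.mul_conj, Complex.zero_le_real]
    exact Complex.normSq_nonneg _
  have h3 : ∀ κ : Fin p → Fin n, (A fun i => fv P (κ i)) = 0 := by
    intro κ
    have h4 := (Finset.sum_eq_zero_iff_of_nonneg fun κ _ => h2 κ).mp h1 κ (Finset.mem_univ κ)
    rw [Complex.mul_conj] at h4
    exact Complex.normSq_eq_zero.mp (Complex.ofReal_eq_zero.mp h4)
  -- the standard basis in terms of the frame
  have h5 : ∀ j, (Pi.single j (1 : ℂ) : Cm n) = ∑ k, conj ((P⁻¹) k j) • fv P k := by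
    intro j
    have hu : IsUnit P.det := by
      have h6 : IsUnit (w⁻¹).det := (Matrix.isUnit_iff_isUnit_det _).mp hw.inv.isUnit
      rw [hwP, Matrix.det_mul] at h6
      exact isUnit_of_mul_isUnit_left h6
    have h7 : P * P⁻¹ = 1 := Matrix.mul_nonsing_inv _ hu
    funext a
    rw [Finset.sum_apply]
    have h8 : (∑ k, (conj ((P⁻¹) k j) • fv P k) a) = conj ((P * P⁻¹) a j) := by
      rw [Matrix.mul_apply, map_sum]
      refine Finset.sum_congr rfl fun k _ => ?_
      rw [Pi.smul_apply, smul_eq_mul, map_mul, mul_comm]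
      rfl
    rw [h8, h7, Matrix.one_apply, Pi.single_apply]
    split_ifs <;> simp
  have h9 : ∀ s, ev A s = 0 := by
    intro s
    unfold ev
    have h10 : (fun i => (Pi.single (s i) (1 : ℂ) : Cm n)) =
        fun i => ∑ k, conj ((P⁻¹) k (s i)) • fv P k := funext fun i => h5 (s i)
    rw [h10]
    have h11 := A.toContinuousMultilinearMap.map_sum
      (fun i (k : Fin n) => conj ((P⁻¹) k (s i)) • fv P k)
    refine h11.trans (Finset.sum_eq_zero fun κ _ => ?_)
    refine (A.toContinuousMultilinearMap.map_smul_univ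
      (fun i => conj ((P⁻¹) (κ i) (s i))) _).trans ?_
    have h12 : A.toContinuousMultilinearMap (fun i => fv P (κ i)) = 0 := h3 κ
    rw [h12, smul_zero]
  ext v
  rw [map_expand A v]
  exact Finset.sum_eq_zero fun s _ => by rw [h9 s, mul_zero]

theorem sum_cs {ι : Type*} (s : Finset ι) (a b : ι → ℂ) :
    ‖∑ i ∈ s, a i * conj (b i)‖ ^ 2 ≤ (∑ i ∈ s, ‖a i‖ ^ 2) * ∑ i ∈ s, ‖b i‖ ^ 2 := by
  have h1 : ‖∑ i ∈ s, a i * conj (b i)‖ ≤ ∑ i ∈ s, ‖a i‖ * ‖b i‖ := by
    refine (norm_sum_le _ _).trans (Finset.sum_le_sum fun i _ => ?_)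
    rw [norm_mul, RCLike.norm_conj]
  calc ‖∑ i ∈ s, a i * conj (b i)‖ ^ 2 ≤ (∑ i ∈ s, ‖a i‖ * ‖b i‖) ^ 2 :=
        pow_le_pow_left₀ (norm_nonneg _) h1 2
    _ ≤ _ := Finset.sum_mul_sq_le_sq_mul_sq s _ _

theorem hn_self_re {w : Matrix (Fin n) (Fin n) ℂ} {P : Matrix (Fin n) (Fin n) ℂ}
    (hP : ∀ (p : ℕ) (A B : Af n p), hn w A B = ((p.factorial : ℂ))⁻¹ *
      ∑ κ : Fin p → Fin n, (A fun i => fv P (κ i)) * conj (B fun i => fv P (κ i))) (A : Af n p) :
    (hn w A A).re = ((p.factorial : ℝ))⁻¹ * ∑ κ : Fin p → Fin n, ‖A fun i => fv P (κ i)‖ ^ 2 := by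
  rw [hP p A A]
  have h1 : ∀ κ : Fin p → Fin n, (A fun i => fv P (κ i)) * conj (A fun i => fv P (κ i)) =
      ((‖A fun i => fv P (κ i)‖ ^ 2 : ℝ) : ℂ) := by
    intro κ
    rw [Complex.mul_conj, Complex.normSq_eq_norm_sq]
  simp only [h1]
  rw [← Complex.ofReal_sum, ← Complex.ofReal_natCast, ← Complex.ofReal_inv, ← Complex.ofReal_mul,
    Complex.ofReal_re]

/-- Cauchy–Schwarz -/
theorem hn_cs {w : Matrix (Fin n) (Fin n) ℂ} (hw : w.PosDef) (A B : Af n p) :
    ‖hn w A B‖ ^ 2 ≤ (hn w A A).re * (hn w B B).re := by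
  obtain ⟨P, -, hP⟩ := exists_frame hw
  rw [hn_self_re hP A, hn_self_re hP B, hP p A B, norm_mul, mul_pow]
  have h1 : ‖((p.factorial : ℂ))⁻¹‖ = ((p.factorial : ℝ))⁻¹ := by
    rw [norm_inv, Complex.norm_natCast]
  rw [h1]
  have h2 := sum_cs Finset.univ (fun κ : Fin p → Fin n => A fun i => fv P (κ i))
    (fun κ : Fin p → Fin n => B fun i => fv P (κ i))
  have h3 : (0 : ℝ) ≤ ((p.factorial : ℝ))⁻¹ ^ 2 := by positivity
  calc _ ≤ ((p.factorial : ℝ))⁻¹ ^ 2 * _ := mul_le_mul_of_nonneg_left h2 h3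
    _ = _ := by ring

/-- symmetry -/
theorem hn_symm {w : Matrix (Fin n) (Fin n) ℂ} (hw : w.PosDef) (A B : Af n p) :
    hn w A B = conj (hn w B A) := by
  obtain ⟨P, -, hP⟩ := exists_frame hw
  rw [hP p A B, hP p B A, map_mul, map_inv₀, map_natCast, map_sum]
  congr 1
  refine Finset.sum_congr rfl fun κ _ => ?_
  rw [map_mul, Complex.conj_conj, mul_comm]

/-- `θ ∧ τ` -/
def wd (θ : Fin n → ℂ) (τ : Af n p) : Af n (p + 1) := ∑ c, θ c • wdz c τ

theorem wdz_apply (c : Fin n) (τ : Af n p) (v : Fin (p + 1) → Cm n) :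
    wdz c τ v = ∑ i : Fin (p + 1), (-1) ^ (i : ℕ) * (v i c * τ (i.removeNth v)) := by
  unfold wdz
  rw [ContinuousAlternatingMap.alternatizeUncurryFin_apply]
  refine Finset.sum_congr rfl fun i _ => ?_
  simp

theorem wd_apply (θ : Fin n → ℂ) (τ : Af n p) (v : Fin (p + 1) → Cm n) :
    wd θ τ v = ∑ i : Fin (p + 1), (-1) ^ (i : ℕ) * ((∑ c, θ c * v i c) * τ (i.removeNth v)) := by
  unfold wd
  rw [ContinuousAlternatingMap.sum_apply]
  simp only [ContinuousAlternatingMap.smul_apply, wdz_apply, smul_eq_mul, Finset.mul_sum]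
  rw [Finset.sum_comm]
  refine Finset.sum_congr rfl fun i _ => ?_
  rw [Finset.sum_mul, Finset.mul_sum]
  refine Finset.sum_congr rfl fun c _ => ?_
  ring

end Vale.Agent.P284.H619.K
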