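import Vale.Agent.P284.H619.K.AlgA

/-!
# P284 (helper619), theorem K: pointwise algebra, part B

The adjoint of `θ ∧` is the contraction with the dual vector; `A_β(η) = Σ |θ_l ∧ η|²` for
`β = Σ θ_l ⊗ conj θ_l`; forms with `dβ_l ∧ η = 0` for all `l`.
-/

open scoped Matrix ComplexConjugate ComplexOrder
open Vale.Agent.P272.K Vale.Agent.P284.H608.K

noncomputable section

namespace Vale.Agent.P284.H619.K

variable {n p : ℕ}

/-- `θ(v)` -/
def pv (θ : Fin n → ℂ) (v : Cm n) : ℂ := ∑ c, θ c * v c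

theorem wd_apply' (θ : Fin n → ℂ) (τ : Af n p) (v : Fin (p + 1) → Cm n) :
    wd θ τ v = ∑ i : Fin (p + 1), (-1) ^ (i : ℕ) * (pv θ (v i) * τ (i.removeNth v)) :=
  wd_apply θ τ v

theorem map_front (σ : Af n (p + 1)) (i : Fin (p + 1)) (v : Fin (p + 1) → Cm n) :
    σ v = (-1) ^ (i : ℕ) * σ (Matrix.vecCons (v i) (i.removeNth v)) := by
  have h1 := σ.map_insertNth i (v i) (i.removeNth v)
  rw [Fin.insertNth_self_removeNth] at h1
  rw [h1, zsmul_eq_mul]
  simp

/-- contraction in the frame -/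
theorem curry_sum (σ : Af n (p + 1)) (u : Cm n) (v : Fin p → Cm n) :
    σ (Matrix.vecCons u v) = ∑ a, u a * σ (Matrix.vecCons (Pi.single a 1) v) := by
  have h : u = ∑ a, u a • (Pi.single a (1 : ℂ) : Cm n) := by
    funext b
    simp [Finset.sum_apply, Pi.single_apply]
  have h1 : σ (Matrix.vecCons u v) = σ.curryLeft u v := rfl
  rw [h1]
  conv_lhs => rw [h]
  rw [map_sum, ContinuousAlternatingMap.sum_apply]
  refine Finset.sum_congr rfl fun a _ => ?_
  rw [map_smul, ContinuousAlternatingMap.smul_apply, smul_eq_mul]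
  rfl

theorem Lam_apply {w P : Matrix (Fin n) (Fin n) ℂ} (h : w⁻¹ = P * Pᴴ) (θ : Fin n → ℂ)
    (σ : Af n (p + 1)) (v : Fin p → Cm n) :
    (Lam w fun b => conj (θ b) • σ) v =
      ∑ k, conj (pv θ (fv P k)) * σ (Matrix.vecCons (fv P k) v) := by
  have hw : ∀ t s, w⁻¹ t s = ∑ k, P t k * conj (P s k) := by
    intro t s
    rw [h, Matrix.mul_apply]
    rfl
  unfold Lam
  rw [ContinuousAlternatingMap.sum_apply]
  have h1 : ∀ a, (∑ b, w⁻¹ b a • (conj (θ b) • σ).curryLeft (Pi.single a 1)) v =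
      ∑ k, ∑ b, P b k * conj (θ b) * (conj (P a k) * σ (Matrix.vecCons (Pi.single a 1) v)) := by
    intro a
    rw [ContinuousAlternatingMap.sum_apply, Finset.sum_comm]
    refine Finset.sum_congr rfl fun b _ => ?_
    rw [ContinuousAlternatingMap.smul_apply, ContinuousAlternatingMap.curryLeft_smul]
    have h2 : ((conj (θ b) • σ.curryLeft) (Pi.single a 1)) v =
        conj (θ b) * σ (Matrix.vecCons (Pi.single a 1) v) := rfl
    rw [h2, smul_eq_mul, hw b a, Finset.sum_mul]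
    refine Finset.sum_congr rfl fun k _ => ?_
    ring
  simp only [h1]
  rw [Finset.sum_comm]
  refine Finset.sum_congr rfl fun k _ => ?_
  rw [curry_sum σ (fv P k) v, Finset.mul_sum]
  refine Finset.sum_congr rfl fun a _ => ?_
  have h3 : conj (pv θ (fv P k)) = ∑ b, P b k * conj (θ b) := by
    unfold pv
    rw [map_sum]
    refine Finset.sum_congr rfl fun b _ => ?_
    have h4 : fv P k b = conj (P b k) := rfl
    rw [map_mul, h4, Complex.conj_conj, mul_comm]
  rw [h3, Finset.sum_mul]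
  rfl

/-- **`hn_lam`** -/
theorem hn_wd {w : Matrix (Fin n) (Fin n) ℂ} (hw : w.PosDef) (θ : Fin n → ℂ) (τ : Af n p)
    (σ : Af n (p + 1)) :
    hn w τ (Lam w fun b => conj (θ b) • σ) = hn w (wd θ τ) σ := by
  obtain ⟨P, hwP, hP⟩ := exists_frame hw
  rw [hP, hP]
  have h1 : ∀ κ : Fin (p + 1) → Fin n,
      (wd θ τ fun i => fv P (κ i)) * conj (σ fun i => fv P (κ i)) =
        ∑ i : Fin (p + 1), pv θ (fv P (κ i)) * (τ fun j => fv P (i.removeNth κ j)) *
          conj (σ (Matrix.vecCons (fv P (κ i)) fun j => fv P (i.removeNth κ j))) := by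
    intro κ
    rw [wd_apply', Finset.sum_mul]
    refine Finset.sum_congr rfl fun i _ => ?_
    rw [map_front σ i, map_mul, map_pow, map_neg, map_one]
    have h2 : i.removeNth (fun i => fv P (κ i)) = fun j => fv P (i.removeNth κ j) := rfl
    rw [h2]
    have h3 : ((-1 : ℂ) ^ (i : ℕ)) * (-1) ^ (i : ℕ) = 1 := by
      rw [← mul_pow]
      norm_num
    linear_combination (pv θ (fv P (κ i)) * (τ fun j => fv P (i.removeNth κ j)) *
          conj (σ (Matrix.vecCons (fv P (κ i)) fun j => fv P (i.removeNth κ j)))) * h3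
  simp only [h1]
  rw [Finset.sum_comm]
  have h4 : ∀ i : Fin (p + 1), ∑ κ : Fin (p + 1) → Fin n,
      pv θ (fv P (κ i)) * (τ fun j => fv P (i.removeNth κ j)) *
        conj (σ (Matrix.vecCons (fv P (κ i)) fun j => fv P (i.removeNth κ j))) =
      ∑ κ : Fin p → Fin n, (τ fun i => fv P (κ i)) *
        conj ((Lam w fun b => conj (θ b) • σ) fun i => fv P (κ i)) := by
    intro i
    rw [← (Fin.insertNthEquiv (fun _ => Fin n) i).sum_comp, Fintype.sum_prod_type, Finset.sum_comm]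
    refine Finset.sum_congr rfl fun κ _ => ?_
    rw [Lam_apply hwP, map_sum, Finset.mul_sum]
    refine Finset.sum_congr rfl fun k _ => ?_
    have hr : i.removeNth ((Fin.insertNthEquiv (fun _ => Fin n) i) (k, κ)) = κ :=
      Fin.removeNth_insertNth (α := fun _ => Fin n) i k κ
    have hs : (Fin.insertNthEquiv (fun _ => Fin n) i) (k, κ) i = k :=
      Fin.insertNth_apply_same (α := fun _ => Fin n) i k κ
    rw [hr, hs, map_mul, Complex.conj_conj]
    ring
  simp only [h4]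
  rw [Finset.sum_const, Finset.card_univ, Fintype.card_fin, nsmul_eq_mul]
  have h5 : (((p + 1).factorial : ℕ) : ℂ) = ((p + 1 : ℕ) : ℂ) * (p.factorial : ℂ) := by
    rw [Nat.factorial_succ, Nat.cast_mul]
  rw [h5, mul_inv, mul_comm (((p + 1 : ℕ) : ℂ))⁻¹, mul_assoc, ← mul_assoc (((p + 1 : ℕ) : ℂ))⁻¹,
    inv_mul_cancel₀ (Nat.cast_ne_zero.mpr (Nat.succ_ne_zero p)), one_mul]

/-- `Σ θ_l ⊗ conj θ_l` -/
def sq {ι : Type*} [Fintype ι] (θ : ι → Fin n → ℂ) : Matrix (Fin n) (Fin n) ℂ :=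
  Matrix.of fun c d => ∑ l, θ l c * conj (θ l d)

/-- **`A_β(η) = Σ_l |θ_l ∧ η|²`** -/
theorem Ad_sq {ι : Type*} [Fintype ι] (w : Matrix (Fin n) (Fin n) ℂ) (θ : ι → Fin n → ℂ)
    (η : Af n p) : Ad w (sq θ) η = ∑ l, hn w (wd (θ l) η) (wd (θ l) η) := by
  have h1 : ∀ l, hn w (wd (θ l) η) (wd (θ l) η) =
      ∑ c, ∑ d, θ l c * conj (θ l d) * hn w (wdz c η) (wdz d η) := by
    intro l
    unfold wd
    rw [hn_sum_left]
    refine Finset.sum_congr rfl fun c _ => ?_
    rw [hn_sum_right]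
    refine Finset.sum_congr rfl fun d _ => ?_
    rw [hn_smul_left, hn_smul_right, mul_assoc]
  simp only [h1]
  unfold Ad sq
  simp only [Matrix.of_apply, Finset.sum_mul]
  rw [Finset.sum_congr rfl fun c _ => Finset.sum_comm]
  exact Finset.sum_comm

theorem Ad_add (w β β' : Matrix (Fin n) (Fin n) ℂ) (η : Af n p) :
    Ad w (β + β') η = Ad w β η + Ad w β' η := by
  unfold Ad
  simp only [Matrix.add_apply, add_mul, Finset.sum_add_distrib]

theorem Ad_smul (w β : Matrix (Fin n) (Fin n) ℂ) (c : ℂ) (η : Af n p) :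
    Ad w (c • β) η = c * Ad w β η := by
  unfold Ad
  simp only [Matrix.smul_apply, smul_eq_mul, Finset.mul_sum, mul_assoc]

/-- a positive semidefinite matrix is a sum of squares -/
theorem exists_sq' {β : Matrix (Fin n) (Fin n) ℂ} (hβ : β.PosSemidef) :
    ∃ θ : Fin n → Fin n → ℂ, β = sq θ := by
  have h := hβ.1.spectral_theorem
  rw [Unitary.conjStarAlgAut_apply] at h
  set U : Matrix (Fin n) (Fin n) ℂ := (hβ.1.eigenvectorUnitary : Matrix (Fin n) (Fin n) ℂ)
  refine ⟨fun l c => U c l * ((Real.sqrt (hβ.1.eigenvalues l) : ℝ) : ℂ), h.trans ?_⟩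
  ext c d
  rw [Matrix.mul_apply]
  unfold sq
  rw [Matrix.of_apply]
  refine Finset.sum_congr rfl fun l _ => ?_
  rw [Matrix.mul_diagonal, map_mul, Complex.conj_ofReal]
  have h1 : (star U) l d = conj (U d l) := rfl
  have h2 : ((RCLike.ofReal ∘ hβ.1.eigenvalues) l : ℂ) =
      ((Real.sqrt (hβ.1.eigenvalues l) : ℝ) : ℂ) * ((Real.sqrt (hβ.1.eigenvalues l) : ℝ) : ℂ) := by
    rw [← Complex.ofReal_mul, Real.mul_self_sqrt (hβ.eigenvalues_nonneg l)]
    rfl
  rw [h1, h2]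
  ring

theorem Ad_nonneg {w β : Matrix (Fin n) (Fin n) ℂ} (hw : w.PosDef) (hβ : β.PosSemidef)
    (η : Af n p) : 0 ≤ Ad w β η := by
  obtain ⟨θ, rfl⟩ := exists_sq' hβ
  rw [Ad_sq]
  exact Finset.sum_nonneg fun l _ => hn_self_nonneg hw _

theorem Ad_mono {w β β' : Matrix (Fin n) (Fin n) ℂ} (hw : w.PosDef) (h : (β' - β).PosSemidef)
    (η : Af n p) : Ad w β η ≤ Ad w β' η := by
  have h1 : β' = β + (β' - β) := (add_sub_cancel β β').symm
  rw [h1, Ad_add]
  exact le_add_of_nonneg_right (Ad_nonneg hw h η)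

/-- the pairing with the curvature -/
theorem hn_lam_le {w β : Matrix (Fin n) (Fin n) ℂ} (hw : w.PosDef) {ι : Type*} [Fintype ι]
    {θ : ι → Fin n → ℂ} {c : ℝ} (hβ : (β - (c : ℂ) • sq θ).PosSemidef) (τ : Af n p) :
    c * ∑ l, (hn w (wd (θ l) τ) (wd (θ l) τ)).re ≤ (Ad w β τ).re := by
  have h1 := Ad_mono hw hβ τ
  rw [Ad_smul, Ad_sq] at h1
  have h2 := (Complex.le_def.mp h1).1
  rw [Complex.re_ofReal_mul, Complex.re_sum] at h2
  exact h2

/-- if `β ≥ c Σ θ_l ⊗ conj θ_l` and `A_β(η) = 0`, then `θ_l ∧ η = 0` -/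
theorem wd_eq_zero {w β : Matrix (Fin n) (Fin n) ℂ} (hw : w.PosDef) {ι : Type*} [Fintype ι]
    {θ : ι → Fin n → ℂ} {c : ℝ} (hc : 0 < c) (hβ : (β - (c : ℂ) • sq θ).PosSemidef)
    {η : Af n p} (h0 : (Ad w β η).re ≤ 0) (l : ι) : wd (θ l) η = 0 := by
  have h1 := hn_lam_le hw hβ η
  have h3 : ∀ l, 0 ≤ (hn w (wd (θ l) η) (wd (θ l) η)).re := fun l =>
    (Complex.le_def.mp (hn_self_nonneg hw _)).1
  have h2 : ∑ l, (hn w (wd (θ l) η) (wd (θ l) η)).re = 0 := by
    have h4 : 0 ≤ ∑ l, (hn w (wd (θ l) η) (wd (θ l) η)).re := Finset.sum_nonneg fun l _ => h3 l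
    nlinarith
  have h5 := (Finset.sum_eq_zero_iff_of_nonneg fun l _ => h3 l).mp h2 l (Finset.mem_univ l)
  refine hn_self_eq_zero hw _ ?_
  have h6 := (Complex.le_def.mp (hn_self_nonneg hw (wd (θ l) η))).2
  exact Complex.ext h5 h6.symm

end Vale.Agent.P284.H619.K
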