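import Vale.Agent.P284.H619.K.AlgB
import Mathlib.LinearAlgebra.Determinant

/-!
# P284 (helper619), theorem K: pointwise algebra, part C

A form `η` of degree `R` with `θ_l ∧ η = 0` for `l = 1..R`, `θ` independent, is a multiple of
`θ_1 ∧ … ∧ θ_R`.
-/

open scoped Matrix ComplexConjugate ComplexOrder
open Vale.Agent.P272.K Vale.Agent.P284.H608.K

noncomputable section

namespace Vale.Agent.P284.H619.K

variable {n r R : ℕ}

theorem pv_add (θ : Fin n → ℂ) (u v : Cm n) : pv θ (u + v) = pv θ u + pv θ v := by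
  unfold pv
  simp only [Pi.add_apply, mul_add, Finset.sum_add_distrib]

theorem pv_smul (θ : Fin n → ℂ) (c : ℂ) (v : Cm n) : pv θ (c • v) = c * pv θ v := by
  unfold pv
  rw [Finset.mul_sum]
  refine Finset.sum_congr rfl fun a _ => ?_
  rw [Pi.smul_apply, smul_eq_mul]
  ring

/-- `pv` as a linear map -/
def pvL (θ : Fin n → ℂ) : Cm n →ₗ[ℂ] ℂ where
  toFun := pv θ
  map_add' := pv_add θ
  map_smul' := pv_smul θ

/-- exchange -/
theorem exch {θ : Fin n → ℂ} {η : Af n (r + 1)} (h0 : wd θ η = 0) (v : Fin (r + 1) → Cm n)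
    (x : Cm n) : pv θ x * η v = ∑ i, pv θ (v i) * η (Function.update v i x) := by
  have h1 : wd θ η (Matrix.vecCons x v) = 0 := by rw [h0]; rfl
  rw [wd_apply', Fin.sum_univ_succ] at h1
  have h2 : (0 : Fin (r + 1 + 1)).removeNth (Matrix.vecCons x v) = v := by
    funext i
    rfl
  rw [h2] at h1
  have h3 : ∀ i : Fin (r + 1), (-1 : ℂ) ^ (i.succ : ℕ) * (pv θ (Matrix.vecCons x v i.succ) *
      η (i.succ.removeNth (Matrix.vecCons x v))) = - (pv θ (v i) * η (Function.update v i x)) := by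
    intro i
    have h4 : i.succ.removeNth (Matrix.vecCons x v) = Matrix.vecCons x (i.removeNth v) := by
      funext j
      refine Fin.cases ?_ (fun j => ?_) j
      · rfl
      · simp [Fin.removeNth, Fin.succ_succAbove_succ]
    have h5 := map_front η i (Function.update v i x)
    have h6 : i.removeNth (Function.update v i x) = i.removeNth v := by
      funext j
      exact Function.update_of_ne (Fin.succAbove_ne i j) _ _
    rw [Function.update_self, h6] at h5
    rw [h4, h5, Matrix.cons_val_succ, Fin.val_succ, pow_succ]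
    ring
  rw [Finset.sum_congr rfl fun i _ => h3 i, Finset.sum_neg_distrib] at h1
  have h7 : (-1 : ℂ) ^ ((0 : Fin (r + 1 + 1)) : ℕ) * (pv θ (Matrix.vecCons x v 0) * η v) =
      pv θ x * η v := by
    simp
  rw [h7] at h1
  linear_combination h1

/-- the projection -/
def qv (θ : Fin R → Fin n → ℂ) (ξ : Fin R → Cm n) (u : Cm n) : Cm n := ∑ l, pv (θ l) u • ξ l

theorem pv_qv {θ : Fin R → Fin n → ℂ} {ξ : Fin R → Cm n}
    (hξ : ∀ l j, pv (θ l) (ξ j) = if l = j then 1 else 0) (u : Cm n) (l : Fin R) :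
    pv (θ l) (qv θ ξ u) = pv (θ l) u := by
  have h1 : pv (θ l) (qv θ ξ u) = ∑ j, pv (θ j) u * pv (θ l) (ξ j) := by
    change pvL (θ l) (∑ j, pv (θ j) u • ξ j) = _
    rw [map_sum]
    refine Finset.sum_congr rfl fun j _ => ?_
    rw [map_smul]
    rfl
  rw [h1]
  simp [hξ]

theorem sum_exch {θ : Fin (r + 1) → Fin n → ℂ} {ξ : Fin (r + 1) → Cm n} {η : Af n (r + 1)}
    (h0 : ∀ l, wd (θ l) η = 0) (hξ : ∀ l j, pv (θ l) (ξ j) = if l = j then 1 else 0)
    (v : Fin (r + 1) → Cm n) :
    ((r + 1 : ℕ) : ℂ) * η v = ∑ i, η (Function.update v i (qv θ ξ (v i))) := by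
  have h1 : ∀ l, η v = ∑ i, pv (θ l) (v i) * η (Function.update v i (ξ l)) := by
    intro l
    have h2 := exch (h0 l) v (ξ l)
    rwa [hξ l l, if_pos rfl, one_mul] at h2
  have h3 : ((r + 1 : ℕ) : ℂ) * η v = ∑ l : Fin (r + 1), η v := by
    rw [Finset.sum_const, Finset.card_univ, Fintype.card_fin, nsmul_eq_mul]
  rw [h3, Finset.sum_congr rfl fun l _ => h1 l, Finset.sum_comm]
  refine Finset.sum_congr rfl fun i _ => ?_
  unfold qv
  have h4 := η.toMultilinearMap.map_update_sum Finset.univ i (fun l => pv (θ l) (v i) • ξ l) v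
  refine Eq.trans ?_ h4.symm
  refine Finset.sum_congr rfl fun l _ => ?_
  exact (η.toMultilinearMap.map_update_smul v i (pv (θ l) (v i)) (ξ l)).symm

theorem qv_zero (θ : Fin R → Fin n → ℂ) (ξ : Fin R → Cm n) (u : Cm n)
    (h : ∀ l, pv (θ l) u = 0) : qv θ ξ u = 0 := by
  unfold qv
  exact Finset.sum_eq_zero fun l _ => by rw [h l, zero_smul]

theorem eq_qv {θ : Fin (r + 1) → Fin n → ℂ} {ξ : Fin (r + 1) → Cm n} {η : Af n (r + 1)}
    (h0 : ∀ l, wd (θ l) η = 0) (hξ : ∀ l j, pv (θ l) (ξ j) = if l = j then 1 else 0)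
    (v : Fin (r + 1) → Cm n) : η v = η fun i => qv θ ξ (v i) := by
  have hS : ∀ S : Finset (Fin (r + 1)), S ≠ Finset.univ →
      η (S.piecewise (fun i => qv θ ξ (v i)) fun i => v i - qv θ ξ (v i)) = 0 := by
    intro S hS
    set m : Fin (r + 1) → Cm n := S.piecewise (fun i => qv θ ξ (v i)) fun i => v i - qv θ ξ (v i)
      with hm
    have h1 := sum_exch h0 hξ m
    have h2 : ∀ i, η (Function.update m i (qv θ ξ (m i))) = if i ∈ S then η m else 0 := by
      intro i
      by_cases hi : i ∈ S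
      · rw [if_pos hi]
        have h3 : m i = qv θ ξ (v i) := by rw [hm, Finset.piecewise_eq_of_mem _ _ _ hi]
        have h4 : qv θ ξ (m i) = m i := by
          rw [h3]
          have h5 : ∀ l, pv (θ l) (qv θ ξ (v i)) = pv (θ l) (v i) := pv_qv hξ (v i)
          change ∑ l, pv (θ l) (qv θ ξ (v i)) • ξ l = _
          rw [Finset.sum_congr rfl fun l _ => by rw [h5 l]]
          rfl
        rw [h4, Function.update_eq_self]
      · rw [if_neg hi]
        have h3 : m i = v i - qv θ ξ (v i) := by rw [hm, Finset.piecewise_eq_of_notMem _ _ _ hi]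
        have h4 : qv θ ξ (m i) = 0 := by
          refine qv_zero θ ξ _ fun l => ?_
          rw [h3]
          have h5 : pvL (θ l) (v i - qv θ ξ (v i)) = pvL (θ l) (v i) - pvL (θ l) (qv θ ξ (v i)) :=
            map_sub _ _ _
          have h6 : pvL (θ l) (qv θ ξ (v i)) = pvL (θ l) (v i) := pv_qv hξ (v i) l
          rw [h6, sub_self] at h5
          exact h5
        rw [h4]
        exact η.toMultilinearMap.map_update_zero m i
    rw [Finset.sum_congr rfl fun i _ => h2 i, Finset.sum_ite_mem, Finset.univ_inter,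
      Finset.sum_const, nsmul_eq_mul] at h1
    have h7 : S.card < r + 1 := by
      have h8 := (Finset.card_lt_iff_ne_univ S).mpr hS
      rwa [Fintype.card_fin] at h8
    have h9 : (((r + 1 : ℕ) : ℂ) - (S.card : ℂ)) ≠ 0 := by
      rw [sub_ne_zero]
      exact_mod_cast h7.ne'
    have h10 : (((r + 1 : ℕ) : ℂ) - (S.card : ℂ)) * η m = 0 := by linear_combination h1
    exact (mul_eq_zero.mp h10).resolve_left h9
  have h1 : v = (fun i => qv θ ξ (v i)) + fun i => v i - qv θ ξ (v i) := by
    funext i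
    simp
  have h2 := η.toMultilinearMap.map_add_univ (fun i => qv θ ξ (v i)) fun i => v i - qv θ ξ (v i)
  rw [← h1] at h2
  have h3 : ∑ S : Finset (Fin (r + 1)),
      η (S.piecewise (fun i => qv θ ξ (v i)) fun i => v i - qv θ ξ (v i)) =
        η (Finset.univ.piecewise (fun i => qv θ ξ (v i)) fun i => v i - qv θ ξ (v i)) :=
    Finset.sum_eq_single Finset.univ (fun S _ hSu => hS S hSu)
      fun h => absurd (Finset.mem_univ _) h
  rw [Finset.piecewise_univ] at h3
  exact h2.trans h3

/-- **a form killed by all `θ_l ∧`** -/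
theorem eq_det {θ : Fin R → Fin n → ℂ} {ξ : Fin R → Cm n} {η : Af n R}
    (h0 : ∀ l, wd (θ l) η = 0) (hξ : ∀ l j, pv (θ l) (ξ j) = if l = j then 1 else 0)
    (v : Fin R → Cm n) : η v = η ξ * (Matrix.of fun i l => pv (θ l) (v i)).det := by
  cases R with
  | zero =>
    have h1 : v = ξ := Subsingleton.elim _ _
    rw [h1, Matrix.det_isEmpty, mul_one]
  | succ r =>
    rw [eq_qv h0 hξ v]
    let s : (Fin (r + 1) → ℂ) →ₗ[ℂ] Cm n := Fintype.linearCombination ℂ ξ
    have h1 := AlternatingMap.eq_smul_basis_det (Pi.basisFun ℂ (Fin (r + 1)))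
      (η.toAlternatingMap.compLinearMap s)
    have h2 : (η.toAlternatingMap.compLinearMap s) (fun i l => pv (θ l) (v i)) =
        η fun i => qv θ ξ (v i) := rfl
    rw [← h2, h1, AlternatingMap.smul_apply, smul_eq_mul]
    have h3 : (η.toAlternatingMap.compLinearMap s) ⇑(Pi.basisFun ℂ (Fin (r + 1))) = η ξ := by
      change η (fun i => s (Pi.basisFun ℂ (Fin (r + 1)) i)) = η ξ
      congr 1
      funext i
      rw [Pi.basisFun_apply]
      exact Fintype.linearCombination_apply_single ℂ (v := ξ) i 1 |>.trans (one_smul _ _)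
    rw [h3]
    congr 1
    exact Pi.basisFun_det_apply _

end Vale.Agent.P284.H619.K
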