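import Vale.Agent.P284.H205.K.Tst
import Vale.Agent.P284.H553.K8.T
import Mathlib.Analysis.Calculus.FDeriv.Symmetric

/-!
# P284 (helper619), K8 (C): the Chern derivative of `e^φ Ψ(b) conj κ db_1 ∧ … ∧ db_R` vanishes
-/

open scoped ContDiff Topology ComplexConjugate ComplexOrder ENNReal
open Filter Set MeasureTheory

noncomputable section

namespace Vale.Agent.P284.H619.K

open Vale.Agent.P272.K Vale.Agent.P284.H608.K Vale.Agent.P284.H553.K8 Vale.Agent.P284.H205.K

variable {n p R : ℕ}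

/-- an `(R+1)`-form on `ℂᴿ` vanishes -/
theorem af_zero (B : Af R (R + 1)) (v : Fin (R + 1) → Cm R) : B v = 0 := by
  refine B.toAlternatingMap.map_linearDependent v fun h => ?_
  have h1 := h.fintype_card_le_finrank
  simp at h1

open ContinuousAlternatingMap in
/-- `λ(L) ∧ L_1 ∧ … ∧ L_R = 0` -/
theorem alt_top (lam : Cm R →L[ℂ] ℂ) (L : Cm n →L[ℂ] Cm R) :
    alternatizeUncurryFin ((lam.comp L).smulRight ((detL R).compContinuousLinearMap L)) = 0 := by
  ext v
  have h1 := af_zero (alternatizeUncurryFin (lam.smulRight (detL R))) (fun i => L (v i))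
  rw [alternatizeUncurryFin_apply] at h1 ⊢
  exact h1

theorem dF_fderiv {b : Cm n → Cm R} {z : Cm n} (hb : AnalyticAt ℂ b z) :
    HasFDerivAt (dF b) ((detL R).fderivCompContinuousLinearMap (fderiv ℂ b z) ∘L
      fderiv ℂ (fderiv ℂ b) z) z := by
  have h1 := (ContinuousAlternatingMap.hasStrictFDerivAt_compContinuousLinearMap (𝕜 := ℂ)
    (detL R, fderiv ℂ b z)).hasFDerivAt
  have h2 : HasFDerivAt (fun y => (detL R, fderiv ℂ b y)) _ z :=
    HasFDerivAt.prodMk (hasFDerivAt_const (detL R) z) hb.fderiv.differentiableAt.hasFDerivAt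
  have := HasFDerivAt.comp z (g := fun fg : Af R R × (Cm n →L[ℂ] Cm R) =>
    fg.1.compContinuousLinearMap fg.2) h1 h2
  refine HasFDerivAt.congr_fderiv this ?_
  ext v
  simp

open ContinuousAlternatingMap in
/-- `d(db_1 ∧ … ∧ db_R) = 0` -/
theorem alt_dF {b : Cm n → Cm R} {z : Cm n} (hb : AnalyticAt ℂ b z) :
    alternatizeUncurryFin ((detL R).fderivCompContinuousLinearMap (fderiv ℂ b z) ∘L
      fderiv ℂ (fderiv ℂ b) z) = 0 := by
  refine alternatizeUncurryFin_fderivCompContinuousLinearMap_eq_zero _ _ fun x y => ?_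
  have h1 : ContDiffAt ℂ ω b z := hb.contDiffAt
  exact h1.isSymmSndFDerivAt (by simp) x y

/-- the linear and the antilinear part of the derivative, for other dimensions -/
theorem hasW_comp {Ψ : Cm R → ℂ} {b : Cm n → Cm R} {z : Cm n} (hb : DifferentiableAt ℂ b z)
    (hΨ : DifferentiableAt ℝ Ψ (b z)) :
    ∃ Q, HasW (fun y => Ψ (b y)) ((pL Ψ (b z)).comp (fderiv ℂ b z)) Q z := by
  have h1 : HasFDerivAt Ψ ((pL Ψ (b z)).restrictScalars ℝ +
      ((pB Ψ (b z)).restrictScalars ℝ).comp (cjm R)) (b z) := hasW_of_diff hΨ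
  refine ⟨{ toFun := fun v => pB Ψ (b z) (cjm R (fderiv ℂ b z (cjm n v)))
            map_add' := fun u v => by simp
            map_smul' := fun c v => by
              rw [cjm_smul, map_smul, cjm_smul]; simp
            cont := (pB Ψ (b z)).continuous.comp ((cjm R).continuous.comp
              ((fderiv ℂ b z).continuous.comp (cjm n).continuous)) }, ?_⟩
  have := HasFDerivAt.comp z h1 (hb.hasFDerivAt.restrictScalars ℝ)
  refine HasFDerivAt.congr_fderiv this ?_
  ext v
  show pL Ψ (b z) (fderiv ℂ b z v) + pB Ψ (b z) (cjm R (fderiv ℂ b z v)) =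
    pL Ψ (b z) (fderiv ℂ b z v) +
      pB Ψ (b z) (cjm R (fderiv ℂ b z (cjm n (cjm n v))))
  rw [cjm_cjm]

open ContinuousAlternatingMap in
/-- **`∂_h (e^φ Ψ(b) conj κ db_1 ∧ … ∧ db_R) = 0`** -/
theorem dhL_main {b : Cm n → Cm R} {z : Cm n} (hb : AnalyticAt ℂ b z) {Ψ : Cm R → ℂ}
    (hΨ : DifferentiableAt ℝ Ψ (b z)) {κ : Cm n → ℂ} (hκ : DifferentiableAt ℂ κ z)
    {φ : Cm n → ℝ} (hφ : DifferentiableAt ℝ φ z) {G : Cm n → ℂ}
    (hG : ∀ᶠ y in 𝓝 z, G y = Complex.exp (φ y) * Ψ (b y) * conj (κ y)) :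
    dhL φ (fun y => G y • dF b y) z = 0 := by
  have hφW : HasW (fun y => (φ y : ℂ)) _ _ z :=
    hasW_of_diff (Complex.ofRealCLM.differentiableAt.comp z hφ)
  have hE := hφW.holo_comp (g := Complex.exp) (Complex.hasDerivAt_exp _)
  obtain ⟨Q, hQ⟩ := hasW_comp hb.differentiableAt hΨ
  obtain ⟨Q', hQ'⟩ := HasW.conj_holo hκ.hasFDerivAt
  have h1 := (hE.smul hQ).smul hQ'
  have h2 : HasW (dF b) _ 0 z := HasW.of_holo (dF_fderiv hb)
  have h3 := h1.smul h2
  have h4 : (fun y => G y • dF b y) =ᶠ[𝓝 z]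
      fun y => ((Complex.exp (φ y) • Ψ (b y)) • conj (κ y)) • dF b y := by
    filter_upwards [hG] with y hy
    rw [hy]
    rfl
  rw [dhL_congr h4, dhL_eq, h3.pL_eq]
  have h5 : ∀ A B : Cm n →L[ℂ] Af n R, alternatizeUncurryFin A = 0 → alternatizeUncurryFin B = 0 →
      ∀ (s t : ℂ), alternatizeUncurryFin (s • A + t • B) = 0 := by
    intro A B hA hB s t
    rw [alternatizeUncurryFin_add, alternatizeUncurryFin_smul, alternatizeUncurryFin_smul, hA, hB,
      smul_zero, smul_zero, add_zero]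
  have h6 := h5 _ _ (alt_top (pL Ψ (b z)) (fderiv ℂ b z)) (alt_dF hb)
    (Complex.exp (φ z) * conj (κ z)) (Complex.exp (φ z) * Ψ (b z) * conj (κ z))
  refine (congrArg _ ?_).trans h6
  ext v w
  have h7 : dF b z = (detL R).compContinuousLinearMap (fderiv ℂ b z) := rfl
  rw [h7]
  simp only [_root_.sub_apply, _root_.add_apply, _root_.smul_apply,
    ContinuousLinearMap.smulRight_apply, ContinuousLinearMap.comp_apply, smul_eq_mul,
    _root_.zero_apply, mul_zero, add_zero, zero_add, ContinuousAlternatingMap.add_apply,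
    ContinuousAlternatingMap.smul_apply, ContinuousAlternatingMap.sub_apply]
  ring

end Vale.Agent.P284.H619.K
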