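import Vale.Agent.P284.H619.K.C1
import Vale.Agent.P284.H752.K1

/-!
# P284 (helper619), K8 (C): the values of `v` over the leaf chart
-/

open scoped Manifold ContDiff Topology ComplexConjugate ComplexOrder ENNReal InnerProductSpace
open Filter Set Metric MeasureTheory

noncomputable section

namespace Vale.Agent.P284.H619.K

open Vale.Agent.P272.K Vale.Agent.P284.H573 Vale.Agent.P284.H395 Vale.Agent.P284.H998
  Vale.Agent.P284.H998.U Vale.Agent.P284.H553.LB Vale.Agent.P284.H608.K Vale.Agent.P284.H837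
  Vale.Agent.P284.H894 Vale.Agent.P284.H894.G Vale.Agent.P284.H553.K8 Vale.Agent.P284.H47.K

variable {n R m : ℕ} {X : Type} [TopologicalSpace X] [ChartedSpace (Cm n) X]

/-- `β` in the chart `e` -/
def bf (β : X → Cm R) (e : Chart n X) : Cm n → Cm R := fun z => β (e.symm z)

section
variable [IsManifold 𝓘(ℂ, Cm n) ω X]

theorem bf_fderiv {β : X → Cm R} {e e' : Chart n X} {x : X} (h : At e x) (h' : At e' x)
    (hb : AnalyticAt ℂ (bf β e) (e x)) :
    fderiv ℂ (bf β e') (e' x) = (fderiv ℂ (bf β e) (e x)).comp (tau e' e x) := by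
  have h1 : (bf β e') =ᶠ[𝓝 (e' x)] fun z => bf β e (e (e'.symm z)) := by
    filter_upwards [h'.nhds_at h] with z hz
    show β (e'.symm z) = β (e.symm (e (e'.symm z)))
    rw [hz.2.2.left_inv]
  have h2 : e (e'.symm (e' x)) = e x := by rw [h'.left_inv]
  have h3 := fderiv_comp (𝕜 := ℂ) (g := bf β e) (f := fun z => e (e'.symm z)) (e' x)
    (by rw [h2]; exact hb.differentiableAt) (transition_differentiableAt h' h)
  rw [h2] at h3
  rw [h1.fderiv_eq]
  exact h3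

theorem bf_DM {β : X → Cm R} {e e' : Chart n X} {x : X} (h : At e x) (h' : At e' x)
    (hb : AnalyticAt ℂ (bf β e) (e x)) (ξ : Fin R → Cm n) :
    DM (bf β e') (e' x) ξ = DM (bf β e) (e x) (fun i => tau e' e x (ξ i)) := by
  rw [DM_eq, DM_eq, bf_fderiv h h' hb]
  rfl

theorem bf_dF {β : X → Cm R} {e e' : Chart n X} {x : X} (h : At e x) (h' : At e' x)
    (hb : AnalyticAt ℂ (bf β e) (e x)) :
    dF (bf β e') (e' x) = (dF (bf β e) (e x)).compContinuousLinearMap (tau e' e x) := by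
  unfold dF
  rw [bf_fderiv h h' hb]
  rfl

end

section
variable {E : Type} [TopologicalSpace E] {H : Type} [NormedAddCommGroup H] [InnerProductSpace ℂ H]
  {p : E → X} {v : E → Chart n X → (Fin R → Cm n) → H} [IsManifold 𝓘(ℂ, Cm n) ω X]

/-- the values of `v` over `N` -/
theorem g_ex (hv : HForm n R m p H v) (hL : Line n p v (Zs p v)) {γ : Cm R → H} {b₀ : Cm R} {r : ℝ}
    {N : Set X} {β : X → Cm R} {x₀ : X} (lf : Lf m p v γ b₀ r N β x₀) {x : X} (hx : x ∈ N) :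
    ∃ g : E → H, (∀ y, p y = x → ‖g y‖ = ‖γ (β x)‖) ∧
      ∀ y, p y = x → ∀ e : Chart n X, At e x → ∀ ξ,
        v y e ξ = (DM (bf β e) (e x) ξ).det ^ m • g y := by
  obtain ⟨y₀, hy₀, hnf⟩ := lf.nf x hx
  set e₀ : Chart n X := chartAt (Cm n) x with he₀
  have hA₀ : At e₀ x := ⟨chart_mem_atlas _ x, mem_chart_source _ x⟩
  obtain ⟨c, G, ⟨ξ₁, hξ₁⟩, ⟨a, ha, hG⟩, hc⟩ := hL x (lf.off x hx) e₀ hA₀
  have hγ : γ (β x) ≠ 0 := (lf.imm _ (lf.maps x hx)).1
  have h1 : ∀ ξ, c ξ • G y₀ = (DM (bf β e₀) (e₀ x) ξ).det ^ m • γ (β x) := by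
    intro ξ
    rw [← hc y₀ hy₀ ξ]
    have h2 := (hnf e₀ hA₀).self_of_nhds ξ
    rw [hy₀] at h2
    exact h2
  have hG0 : G y₀ ≠ 0 := by
    rw [← norm_pos_iff, hG y₀ hy₀]
    exact ha
  set k : ℂ := (DM (bf β e₀) (e₀ x) ξ₁).det ^ m / c ξ₁ with hk
  have h2 : G y₀ = k • γ (β x) := by
    have h3 := h1 ξ₁
    rw [hk, div_eq_inv_mul, mul_smul, ← h3, smul_smul, inv_mul_cancel₀ hξ₁, one_smul]
  have hk0 : k ≠ 0 := by
    intro h
    rw [h, zero_smul] at h2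
    exact hG0 h2
  have h3 : ∀ ξ, c ξ * k = (DM (bf β e₀) (e₀ x) ξ).det ^ m := by
    intro ξ
    have h4 := h1 ξ
    rw [h2, smul_smul] at h4
    exact smul_left_injective ℂ hγ h4
  refine ⟨fun y => k⁻¹ • G y, fun y hy => ?_, fun y hy e he ξ => ?_⟩
  · have h4 : ‖G y₀‖ = ‖k‖ * ‖γ (β x)‖ := by rw [h2, norm_smul]
    rw [norm_smul, hG y hy, ← hG y₀ hy₀, h4, norm_inv, ← mul_assoc,
      inv_mul_cancel₀ (norm_ne_zero_iff.mpr hk0), one_mul]
  · subst hy
    rw [hv.change y e e₀ he hA₀ ξ, hc y rfl, bf_DM hA₀ he (lf.an _ hx e₀ hA₀), ← h3, smul_smul,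
      mul_assoc, mul_inv_cancel₀ hk0, mul_one]

/-- the determinant of `dβ` does not vanish where `v` does not vanish -/
theorem det_ne (hv : HForm n R m p H v) (hL : Line n p v (Zs p v)) (hm : 1 ≤ m) {γ : Cm R → H}
    {b₀ : Cm R} {r : ℝ} {N : Set X} {β : X → Cm R} {x₀ : X} (lf : Lf m p v γ b₀ r N β x₀) {x : X}
    (hx : x ∈ N) {y : E} (hy : p y = x) {e : Chart n X} (he : At e x) {ξ : Fin R → Cm n}
    (h : v y e ξ ≠ 0) : (DM (bf β e) (e x) ξ).det ≠ 0 := by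
  obtain ⟨g, -, hg⟩ := g_ex hv hL lf hx
  intro h0
  apply h
  rw [hg y hy e he ξ, h0, zero_pow (by omega), zero_smul]

theorem norm_v (hv : HForm n R m p H v) (hL : Line n p v (Zs p v)) {γ : Cm R → H}
    {b₀ : Cm R} {r : ℝ} {N : Set X} {β : X → Cm R} {x₀ : X} (lf : Lf m p v γ b₀ r N β x₀) {x : X}
    (hx : x ∈ N) {y : E} (hy : p y = x) {e : Chart n X} (he : At e x) (ξ : Fin R → Cm n) :
    ‖v y e ξ‖ = ‖(DM (bf β e) (e x) ξ).det‖ ^ m * ‖γ (β x)‖ := by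
  obtain ⟨g, hg1, hg⟩ := g_ex hv hL lf hx
  rw [hg y hy e he ξ, norm_smul, norm_pow, hg1 y hy]

end

end Vale.Agent.P284.H619.K
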